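import Vale.Agent.P159.MS.Bound

open Vale.Agent.P159 Vale.Agent.P159.MS

namespace Vale.Agent.Results.P159.EnergyRenormalisedDecay

/-- Power upper bounds with the exponent `1 / (2 π b C_{b'}(1))`, for every `b' > b > 0`. -/
theorem result (b : ℝ) (hb : 0 < b) :
    (∀ b' : ℝ, b < b' → C b' 1 ≤ siteMag (4 * b') ∧ siteMag (4 * b') < 1 ∧
      ∀ η : ℝ, η * (2 * Real.pi * b * C b' 1) < 1 →
        ∃ K : ℝ, (∀ (R : ℕ) (x y : Site), x ≠ y → |corrBox R b x y| ≤ K * dist2 x y ^ (-η)) ∧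
          ∀ r : ℕ, 1 ≤ r → C b r ≤ K * (r : ℝ) ^ (-η)) ∧
    ∃ η : ℝ, 1 / (2 * Real.pi * b) < η ∧
      ∃ K : ℝ, ∀ r : ℕ, 1 ≤ r → C b r ≤ K * (r : ℝ) ^ (-η) :=
  ⟨fun _ hb' => ⟨C_one_le_siteMag (hb.le.trans hb'.le), siteMag_lt_one _,
    fun _ hη => renormalised_bound_C hb hb' hη⟩, strictly_renormalised hb⟩

end Vale.Agent.Results.P159.EnergyRenormalisedDecay
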