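import Vale.Agent.P159.Mass

/-!
# P159, Question 2: a lower bound on the correlation length near the threshold
-/

namespace Vale.Agent.Results.P159.XiPowerLowerBound

open Filter
open scoped Topology
open Vale.Agent.P159

/-- If the mass vanishes somewhere, then `ξ = 1 / m` grows at least like `(bc - b) ^ (-a)` with
`a > 1 / 2` as `b` increases to `bc`. -/
theorem result (hne : {b : ℝ | 0 < b ∧ mass b = 0}.Nonempty) :
    (∀ b : ℝ, 0 < b → (∀ r : ℕ,
        Tendsto (fun R : ℕ => corrBox R b 0 ((r : ℤ), 0)) atTop (𝓝 (C b r))) ∧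
      Tendsto (fun r : ℕ => -Real.log (C b r) / r) atTop (𝓝 (mass b))) ∧
    0 < bc ∧ mass bc = 0 ∧ (∀ b, 0 < b → b < bc → 0 < mass b) ∧
    ∃ a c : ℝ, 1 / 2 < a ∧ 0 < c ∧
      ∀ b, bc / 2 ≤ b → b < bc → c * (bc - b) ^ (-a) ≤ 1 / mass b := by
  obtain ⟨hbc, hm, hpos⟩ := bc_spec hne
  obtain ⟨a, K, ha, hK, h⟩ := exists_mass_le hne
  refine ⟨fun b hb => ⟨fun r => ?_, tendsto_mass hb⟩, hbc, hm, hpos, a, K⁻¹, ha, inv_pos.2 hK,
    fun b h1 h2 => ?_⟩
  · rw [C_eq hb.le]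
    exact tendsto_corrBox hb.le _ _
  · have hd : 0 < bc - b := sub_pos.2 h2
    rw [Real.rpow_neg hd.le, ← mul_inv, one_div]
    exact inv_anti₀ (hpos b (by linarith) h2) (h b h1 h2)

end Vale.Agent.Results.P159.XiPowerLowerBound
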